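import Vale.Agent.P241GC.Sp
import Vale.Agent.P241GR.C
import Vale.Agent.P241GI.Main

/-!
# P241G, row C1
-/

open CategoryTheory MonoidalCategory Limits OnePoint

noncomputable section

namespace Vale.Agent.P241GC

open P251 P251.G P251.G.LC P251.H P251.St P241.St P241.Geo P241GR P241GA P241GA.GIn
open P251.H.GS P251.H.GS.StabInput
open P241Z (reg)

universe v u

section Spaces

variable {G : Type} [Group G] {A B C : GSpace G}

theorem gincl_hom (t : unitInterval) (K : GSpace G) :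
    (gincl t K).hom = incl t (L K) ≫ (pt K Iv).hom := LC.hom_ext fun _ => rfl

/-- an equivariant homotopy as a morphism out of the cylinder -/
def gH {X Y : GSpace G} (K : L X ⊗ II ⟶ L Y) (hK : EqvH K) : gl (xt X Iv) ⟶ gl Y :=
  glMap ((pt X Iv).inv ≫ K) fun g => by
    rw [← cancel_epi (pt X Iv).hom, pt_act_assoc, Iso.hom_inv_id_assoc, Category.assoc,
      Iso.hom_inv_id_assoc]
    exact hK g

theorem gincl_gH {X Y : GSpace G} (K : L X ⊗ II ⟶ L Y) (hK : EqvH K) (t : unitInterval) :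
    (gincl t X ≫ gH K hK).hom = incl t (L X) ≫ K := LC.hom_ext fun _ => rfl

theorem exists_mcyl (i : gl A ⟶ gl B) : ∃ (P : GSpace G) (k : gl (xt A Iv) ⟶ gl P)
    (j : gl B ⟶ gl P), IsPushout (gincl 0 A).hom i.hom k.hom j.hom := by
  obtain ⟨P, k, j, h, -, -⟩ := exists_pushout (incl 0 (L A)) (show L A ⟶ L B from i.hom)
    (injective_app_incl 0 (L A))
  have w : ∀ g : G, incl 0 (L A) ≫ act A g ▷ II ≫ k =
      (show L A ⟶ L B from i.hom) ≫ act B g ≫ j := fun g => by
    rw [incl_naturality_assoc, h.w, ← Category.assoc, ← Category.assoc]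
    exact congrArg (· ≫ j) (eqv_hom i g)
  let a : G → (P ⟶ P) := fun g => h.desc _ _ (w g)
  have ak : ∀ g, k ≫ a g = act A g ▷ II ≫ k := fun g => h.inl_desc _ _ _
  have aj : ∀ g, j ≫ a g = act B g ≫ j := fun g => h.inr_desc _ _ _
  have h1 : a 1 = 𝟙 P := h.hom_ext
    (by rw [ak, act_one, id_whiskerRight, Category.id_comp, Category.comp_id])
    (by rw [aj, act_one, Category.id_comp, Category.comp_id])
  have hm : ∀ g g', a (g * g') = a g' ≫ a g := fun g g' => h.hom_ext
    (by rw [ak, reassoc_of% ak, ak, act_mul, comp_whiskerRight, Category.assoc])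
    (by rw [aj, reassoc_of% aj, aj, act_mul, Category.assoc])
  refine ⟨mkG P a h1 hm, gH (Y := mkG P a h1 hm) k fun g => ?_,
    glMap (Y := mkG P a h1 hm) j fun g => ?_, ?_⟩
  · rw [act_mkG]
    exact (ak g).symm
  · rw [act_mkG]
    exact (aj g).symm
  · rw [gincl_hom]
    exact h.of_iso (Iso.refl _) (pt A Iv) (Iso.refl _) (Iso.refl _) (Category.id_comp _).symm
      ((Category.comp_id _).trans (Category.id_comp _).symm)
      ((Category.comp_id _).trans (Iso.hom_inv_id_assoc _ _).symm)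
      ((Category.comp_id _).trans (Category.id_comp _).symm)

theorem isPushout_quot {i : Map A.und B.und} {q : Map B.und C.und} (h : IsQuot i q) :
    IsPushout (toHom i) (0 : L A ⟶ LC.of Empty) (toHom q) 0 := by
  have h0 : ∀ a, q.toFun (i.toFun a) = ∞ := fun a =>
    ((h.2 _ _).2 (.inr ⟨⟨a, rfl⟩, ⟨∞, i.map_infty⟩⟩)).trans q.map_infty
  have h1 : ∀ b, q.toFun b = ∞ → b ∈ Set.range i.toFun := fun b hb => by
    rcases (h.2 b ∞).1 (hb.trans q.map_infty.symm) with e | e
    · exact ⟨∞, i.map_infty.trans e.symm⟩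
    · exact e.1
  refine P251.G.LC.isPushout_of (app_ext h0) (fun x y _ => ?_) ⟨fun b hb => ?_, fun b hb b' _ e => ?_,
    fun c hc => ?_⟩
  · induction x using OnePoint.rec with
    | coe x => exact x.elim
    | infty =>
      induction y using OnePoint.rec with
      | coe y => exact y.elim
      | infty => rfl
  · rintro ⟨z, hz⟩
    exact hb (h1 b hz.symm)
  · exact ((h.2 b b').1 e).resolve_right fun e' => hb e'.1
  · obtain ⟨b, rfl⟩ := h.1 c
    refine ⟨b, ?_, rfl⟩
    rintro ⟨a, rfl⟩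
    exact hc ⟨∞, (h0 a).symm⟩

/-- `ℝ × (G/H × ℝⁿ) = G/H × ℝⁿ⁺¹` -/
def cellIso (H : Subgroup G) (n : ℕ) :
    (triv LC G).obj RR ⊗ gl (cell G H n) ≅ gl (cell G H (n + 1)) :=
  letI : TopologicalSpace (G ⧸ H) := ⊥
  Action.mkIso (ofHomeo (X := RR ⊗ L (cell G H n)) (Y := L (cell G H (n + 1)))
    { toFun := fun p => (p.2.1, (Fin.cons p.1 p.2.2 : Fin (n + 1) → ℝ))
      invFun := fun x => (x.2 0, (x.1, Fin.tail x.2))
      left_inv := fun _ => rfl
      right_inv := fun x => Prod.ext rfl (Fin.cons_self_tail x.2)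
      continuous_toFun := by
        refine (continuous_fst.comp continuous_snd).prodMk (continuous_pi fun i => ?_)
        refine Fin.cases ?_ (fun j => ?_) i
        · exact continuous_fst
        · exact (continuous_apply j).comp (continuous_snd.comp continuous_snd)
      continuous_invFun := ((continuous_apply 0).comp continuous_snd).prodMk
        (continuous_fst.prodMk
          (continuous_pi fun j => (continuous_apply j.succ).comp continuous_snd)) })
    fun _ => LC.tensor_ext fun _ _ => rfl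

end Spaces

variable {G : Type} [Group G] [Finite G] (M : Type u) [Category.{v} M]
    [MonoidalCategory M] [SymmetricCategory M] [MonoidalClosed M] [HasZeroMorphisms M]
    [HasColimitsOfSize.{0, 0} M] [GIn G M]

theorem mHtpy_tf (n : ℕ) {X Y : GSpace G} {f g : gl X ⟶ gl Y}
    (h : GHtp (X := X) (Y := Y) f.hom g.hom) : MHtpy ((TF M n).map f) ((TF M n).map g) := by
  obtain ⟨K, hK, h0, h1⟩ := h
  refine (mHtpy_iff _ _).2 ⟨(TF M n).map (gH K hK), ?_, ?_⟩
  · rw [← Functor.map_comp]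
    exact congrArg _ (Action.hom_ext _ _ ((gincl_gH K hK 0).trans h0))
  · rw [← Functor.map_comp]
    exact congrArg _ (Action.hom_ext _ _ ((gincl_gH K hK 1).trans h1))

theorem hCof_tf {A B : GSpace G} (i : gl A ⟶ gl B) (hi : GCof (A := A) (B := B) i.hom) (n : ℕ) :
    HCof ((TF M n).map i) := by
  induction n with
  | succ n ih => exact ih.whiskerLeft _
  | zero =>
    intro Z f H e
    obtain ⟨P, k, j, h⟩ := exists_mcyl i
    have hinj : Function.Injective (app (gincl 0 A).hom) := by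
      rw [gincl_hom]
      exact fun x y e => injective_app_incl 0 (L A) (injective_iso (pt A Iv) e)
    have hP := GIn.pushout (M := M) (gincl 0 A) i k j hinj h
    obtain ⟨K, hK, k0, k1⟩ := hi P j.hom ((pt A Iv).hom ≫ (show L (xt A Iv) ⟶ L P from k.hom))
      (eqv_hom j) (fun g => by
        rw [Category.assoc, ← eqv_hom k g]
        exact (pt_act_assoc A Iv g _).symm)
      ((Category.assoc _ _ _).symm.trans ((congrArg (· ≫ k.hom) (gincl_hom 0 A).symm).trans h.w))
    have r0 : gincl 0 B ≫ gH K hK = j := Action.hom_ext _ _ ((gincl_gH K hK 0).trans k0)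
    have r2 : ∀ (i' : L A ⟶ L B) (k' : L (xt A Iv) ⟶ L P), i' ▷ II ≫ K = (pt A Iv).hom ≫ k' →
        wr i' Iv ≫ (pt B Iv).inv ≫ K = k' := fun i' k' e' => by
      rw [← cancel_epi (pt A Iv).hom, pt_wr_assoc, Iso.hom_inv_id_assoc]
      exact e'
    have r1 : gwr i Iv ≫ gH K hK = k := Action.hom_ext _ _ (r2 i.hom k.hom k1)
    have hc : (TF M 0).map (gincl 0 A) ≫ (xtIso M 0 A Iv).inv ≫ H = (TF M 0).map i ≫ f := by
      rw [← inc_xtIso, Category.assoc, Iso.hom_inv_id_assoc]
      exact e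
    obtain ⟨d, d1, d2⟩ : ∃ d : (TF M 0).obj (gl P) ⟶ Z,
        (TF M 0).map k ≫ d = (xtIso M 0 A Iv).inv ≫ H ∧ (TF M 0).map j ≫ d = f :=
      ⟨hP.desc _ f hc, hP.inl_desc _ _ _, hP.inr_desc _ _ _⟩
    refine ⟨(xtIso M 0 B Iv).hom ≫ (TF M 0).map (gH K hK) ≫ d, ?_, ?_⟩
    · rw [← Category.assoc, inc_xtIso, ← Functor.map_comp_assoc, r0, d2]
    · refine (xtIso_gwr_assoc M 0 i Iv _).trans ?_
      rw [← Functor.map_comp_assoc, r1, d1, Iso.hom_inv_id_assoc]

theorem isCofibre_tf {A B C : GSpace G} (i : gl A ⟶ gl B) (q : gl B ⟶ gl C)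
    (hi : Function.Injective (app i.hom))
    (h : IsPushout (show L A ⟶ L B from i.hom) (0 : L A ⟶ LC.of Empty) q.hom 0) (n : ℕ) :
    IsCofibre ((TF M n).map i) ((TF M n).map q) := by
  induction n with
  | succ n ih => exact isCofibre_whiskerLeft ih _
  | zero =>
    exact ⟨_, GIn.isZero_empty, _, _, GIn.pushout (M := M) (C := (triv LC G).obj (LC.of Empty)) i
      ⟨0, fun _ => comp_zero.trans zero_comp.symm⟩ q ⟨0, fun _ => comp_zero.trans zero_comp.symm⟩
      hi h⟩

theorem isZero_tf (n : ℕ) : IsZero ((TF M n).obj (gl (GSpace.triv G Em))) := by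
  induction n with
  | zero => exact GIn.isZero_empty.of_iso ((JG M).mapIso (glTriv G Em).symm)
  | succ n ih => exact StabInput.isZero_tensor_right _ ih

theorem seq_tf (n : ℕ) {A B C : GSpace G} {i : Map A.und B.und} {q : Map B.und C.und}
    (hi : IsGMap (X := A) (Y := B) i.toFun) (hq : IsGMap (X := B) (Y := C) q.toFun)
    (hc : GCofib (A := A) (B := B) i) (h : IsQuot i q) :
    ∃ (i' : (TF M n).obj (gl A) ⟶ (TF M n).obj (gl B))
      (q' : (TF M n).obj (gl B) ⟶ (TF M n).obj (gl C)), HCof i' ∧ IsCofibre i' q' :=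
  have hc' : GCof (A := A) (B := B) (toHom i) := (gCofib_iff (toHom i)).1 hc
  ⟨_, _, hCof_tf M (glMap (toHom i) ((isGMap_iff _).1 hi)) hc' n,
    isCofibre_tf M _ (glMap (toHom q) ((isGMap_iff _).1 hq)) hc'.injective (isPushout_quot h) n⟩

theorem src_hequiv (n : ℕ) {X Y : GSpace G} (h : GHEquiv X Y)
    (hX : Src (GG M) ((TF M n).obj (gl X))) : Src (GG M) ((TF M n).obj (gl Y)) := by
  obtain ⟨f, g, hf, hg, -, h2⟩ := (gHEquiv_iff X Y).1 h
  refine src_retract hX ((TF M n).map (glMap f hf)) ((TF M n).map (glMap g hg)) ?_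
  rw [← Functor.map_comp, ← CategoryTheory.Functor.map_id]
  exact mHtpy_tf M n h2

theorem thick (n : ℕ) : Thick fun X : GSpace G => Src (GG M) ((TF M n).obj (gl X)) where
  empty := src_zero (isZero_tf M n)
  hequiv _ h := src_hequiv M n h
  fib := fun ⟨_, _, _, _, _, hi, hq, hc, h⟩ =>
    let ⟨_, _, h1, h2⟩ := seq_tf M n hi hq hc h
    src_fib h1 h2
  ext := fun ⟨_, _, _, _, _, hi, hq, hc, h⟩ =>
    let ⟨_, _, h1, h2⟩ := seq_tf M n hi hq hc h
    src_ext h1 h2
  quot := fun ⟨_, _, _, _, _, hi, hq, hc, h⟩ =>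
    let ⟨_, _, h1, h2⟩ := seq_tf M n hi hq hc h
    src_quot h1 h2

theorem src_cell (k : ℕ) (H : Subgroup G) (n : ℕ) :
    Src (GG M) ((TF M k).obj (gl (cell G H n))) ↔ Src (GG M) ((TF M k).obj (orb H)) := by
  induction n with
  | zero => rfl
  | succ n ih =>
    exact (src_iso (sIso M k _ ≪≫ (TF M k).mapIso (cellIso H n))).symm.trans ((src_S _).trans ih)

theorem src_orb (H : Subgroup G) : Src (GG M) ((TF M 0).obj (orb H)) :=
  Src.of_test ⟨(H, []), ⟨Iso.refl _⟩⟩

theorem src_zero_gfc {K : GSpace G} (h : GFC G K) : Src (GG M) ((TF M 0).obj (gl K)) := by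
  induction h with
  | empty => exact src_zero (isZero_tf M 0)
  | cell V n => exact (src_cell M 0 V n).2 (src_orb M V)
  | hequiv _ h ih => exact src_hequiv M 0 h ih
  | ext hi hq hc h _ _ ihA ihC =>
    obtain ⟨_, _, h1, h2⟩ := seq_tf M 0 hi hq hc h
    exact src_ext h1 h2 ihA ihC

theorem src_one (H : Subgroup G) : Src (GG M) ((TF M 1).obj (orb H)) := by
  induction hm : Nat.card H using Nat.strong_induction_on generalizing H with
  | _ m ih =>
    obtain ⟨n, hn⟩ := P241GI.i2 G _ (thick M 1) H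
      (fun V hV n => (src_cell M 1 V n).2 (ih _ (hm ▸ hV) V rfl))
      ((src_iso (csIso M 0 (cell G H 0) ≪≫ (TF M 1).mapIso ((glProd _ _).symm ≪≫ β_ _ _ ≪≫
        glProd _ _))).1 ((src_U _).2 (src_orb M H)))
    exact (src_cell M 1 H n).1 hn

theorem src_gen {Z : M} (h : ∀ H : Subgroup G, Src (GG M) (Z ⊗ (JG M).obj (orb H))) (A : M)
    (hA : GG M A) : Src (GG M) (Z ⊗ A) := by
  obtain ⟨⟨H, w⟩, ⟨e⟩⟩ := hA
  refine (src_iso (whiskerLeftIso Z e)).2 ?_
  have τ : ∀ T B : M, Z ⊗ (T ⊗ B) ≅ T ⊗ (Z ⊗ B) := fun T B =>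
    (α_ _ _ _).symm ≪≫ whiskerRightIso (β_ _ _) _ ≪≫ α_ _ _ _
  clear e
  induction w with
  | nil => exact h H
  | cons b w ih =>
    cases b
    · exact (src_iso (τ _ _)).2 (src_L ih)
    · exact (src_iso (τ _ _)).2 ((src_S _).2 ih)

theorem src_F (A : M) (hA : GG M A) : Src (GG M) ((F : M) ⊗ A) := src_gen M (src_one M) A hA

theorem flat_V : Flat (piW (GG M)) ((JG M).obj (Vg G)) :=
  flat_of (β_ _ _ ≪≫ (uIso M).symm) (src_F M)

theorem flat_F : Flat (piW (GG M)) (F : M) :=
  flat_of (uIso M).symm (src_gen M fun H =>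
    (src_iso (tfL M 0 _ _ ≪≫ (TF M 0).mapIso (glProd _ _))).2
      (src_zero_gfc M (P241.H32.gfc_prod P241Z.gfc_reg (GFC.cell H 0))))

theorem src_tf (n : ℕ) {K : GSpace G} (h : GFC G K) : Src (GG M) ((TF M n).obj (gl K)) := by
  induction n with
  | zero => exact src_zero_gfc M h
  | succ n ih => exact src_tensor (β_ _ _ ≪≫ (uIso M).symm) (flat_V M) ih

/-- Row `C1`. -/
theorem c1 {G : Type} [Group G] [Finite G] (M : Type u) [Category.{0} M]
    [MonoidalCategory M] [SymmetricCategory M] [MonoidalClosed M] [HasZeroMorphisms M]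
    [HasColimitsOfSize.{0, 0} M] [GIn G M] : C1 M where
  src n _ h := src_tf M n h
  tenF f hf := flat_F M f hf
  tenV f hf := flat_V M f hf
  hom f hf := piW_ihom (src_F M) f hf

end Vale.Agent.P241GC
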