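import Vale.Agent.P241GS.PuppeInst
import Vale.Agent.P241GS.Gen

/-!
# P241G, row C1: closure properties of the objects which see the stable equivalences

The first half is a copy of `P251CL/Sph` for the weaker input class.
-/

open CategoryTheory MonoidalCategory Limits ZeroObject

namespace Vale.Agent.P241GC

open Vale.Agent.P251 Vale.Agent.P251.G Vale.Agent.P251.G.LC Vale.Agent.P251.H
  Vale.Agent.P251.H.GS Vale.Agent.P251.H.GS.StabInput

universe v u

variable {M : Type u} [Category.{v} M] [MonoidalCategory M] [SymmetricCategory M]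
    [MonoidalClosed M] [HasZeroMorphisms M] [HasColimitsOfSize.{0, 0} M] [GS.StabInput M]

/-- all stable classes `A ⟶ Z` vanish -/
def Triv (A Z : M) : Prop := ∀ x : PiM A Z, x = pz A Z

/-- `Z` is acyclic for the test objects `GG` -/
def Acyc (GG : ObjectProperty M) (Z : M) : Prop := ∀ A, GG A → Triv A Z

theorem comapM_pz {A B : M} (a : A ⟶ B) (Z : M) : comapM a Z (pz B Z) = pz A Z := by
  refine (CoPt.comap_cl _ _ _ _ _).trans ?_
  unfold pz
  rw [CoPt.pwMap_zero, ← Functor.map_comp, comp_zero]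

theorem comapM_comp {A B D : M} (a : A ⟶ B) (b : B ⟶ D) (Z : M) (x : PiM D Z) :
    comapM (a ≫ b) Z x = comapM a Z (comapM b Z x) := by
  rw [comapM, Functor.map_comp, CoPt.comap_comp]

theorem comapM_id (A Z : M) (x : PiM A Z) : comapM (𝟙 A) Z x = x := by
  rw [comapM, CategoryTheory.Functor.map_id, CoPt.comap_id]

theorem comapM_congr {A B : M} {a b : A ⟶ B} (h : MHtpy a b) (Z : M) :
    comapM a Z = comapM b Z := by
  rw [comapM, comapM, HM.sound h]

theorem Triv.of_retract {A B Z : M} (h : Triv A Z) (f : A ⟶ B) (g : B ⟶ A)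
    (hg : MHtpy (g ≫ f) (𝟙 B)) : Triv B Z := by
  intro x
  rw [← comapM_id B Z x, ← comapM_congr hg, comapM_comp, h (comapM f Z x), comapM_pz]

theorem Triv.of_iso {A B Z : M} (h : Triv A Z) (e : A ≅ B) : Triv B Z :=
  h.of_retract e.hom e.inv (MHtpy.of_eq e.inv_hom_id)

theorem triv_of_isZero {A : M} (hA : IsZero A) (Z : M) : Triv A Z := by
  intro x
  have h : 𝟙 A = (0 : A ⟶ A) := hA.eq_of_src _ _
  rw [← comapM_id A Z x, h]
  obtain ⟨k, y, rfl⟩ := CoPt.cl_surj x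
  refine (CoPt.comap_cl _ _ _ _ _).trans ?_
  have h1 : ∀ k : ℕ, (stab M).coPt.pwMap k ((HM.proj M).map (0 : A ⟶ A)) = 0 := by
    intro k
    induction k with
    | zero => rfl
    | succ k ih =>
      rw [CoPt.pwMap_succ, ih]
      exact congrArg (HM.proj M).map (whiskerLeft_zero' (U M))
  rw [h1, zero_comp, cl_zero]

theorem triv_of_contr (A : M) {Z : M} (hZ : MHtpy (𝟙 Z) 0) : Triv A Z := by
  intro x
  rw [← mapM_id A Z x, mapM_of_mHtpy_zero A hZ]

/-- the iterated stabilization of a cofibre sequence is a cofibre sequence -/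
theorem exists_pw_cofibre {A B Q : M} {i : A ⟶ B} {q : B ⟶ Q} (hi : HCof i) (hq : IsCofibre i q)
    (m : ℕ) :
    ∃ (i' : ((stab M).coPt.pw m ((HM.proj M).obj A)).obj ⟶
        ((stab M).coPt.pw m ((HM.proj M).obj B)).obj)
      (q' : ((stab M).coPt.pw m ((HM.proj M).obj B)).obj ⟶
        ((stab M).coPt.pw m ((HM.proj M).obj Q)).obj),
      (HM.proj M).map i' = (stab M).coPt.pwMap m ((HM.proj M).map i) ∧
      (HM.proj M).map q' = (stab M).coPt.pwMap m ((HM.proj M).map q) ∧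
      HCof i' ∧ IsCofibre i' q' := by
  induction m with
  | zero => exact ⟨i, q, rfl, rfl, hi, hq⟩
  | succ m ih =>
    obtain ⟨i', q', h1, h2, h3, h4⟩ := ih
    refine ⟨U M ◁ i', U M ◁ q', ?_, ?_, h3.whiskerLeft _, isCofibre_whiskerLeft h4 _⟩
    · rw [CoPt.pwMap_succ, ← h1]
      rfl
    · rw [CoPt.pwMap_succ, ← h2]
      rfl

/-- exactness of stable classes in the first variable -/
theorem exists_comapM {A B Q : M} {i : A ⟶ B} {q : B ⟶ Q} (hi : HCof i) (hq : IsCofibre i q)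
    {Z : M} (x : PiM B Z) (hx : comapM i Z x = pz A Z) : ∃ y : PiM Q Z, comapM q Z y = x := by
  obtain ⟨k, g, rfl⟩ := CoPt.cl_surj x
  have hy : (stab M).coPt.cl k ((stab M).coPt.pwMap k ((HM.proj M).map i) ≫ g) =
      (stab M).coPt.cl (A := (HM.proj M).obj A) (X := (HM.proj M).obj Z) k 0 := by
    rw [cl_zero]
    exact hx
  rw [CoPt.cl_eq_iff'] at hy
  obtain ⟨m, hkm, e⟩ := hy
  rw [comp_zero, ← Category.assoc, ← CoPt.tr_nat, Category.assoc] at e
  rw [← CoPt.cl_tr hkm g]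
  obtain ⟨i', q', h1, h2, h3, h4⟩ := exists_pw_cofibre hi hq m
  obtain ⟨g', hg'⟩ : ∃ g' : ((stab M).coPt.pw m ((HM.proj M).obj B)).obj ⟶ Z,
      (HM.proj M).map g' = (stab M).coPt.tr hkm ((HM.proj M).obj B) ≫ g :=
    HM.proj_map_surjective _
  rw [← hg', ← h1] at e
  obtain ⟨H, H0, H1⟩ : MHtpy (i' ≫ g') 0 := (HM.proj_map_eq_iff _ _).mp (by
    rw [Functor.map_comp, HM.proj_map_zero]
    exact e)
  obtain ⟨K, K0, K1⟩ := h3 Z g' H H0
  obtain ⟨y, hy⟩ := h4.exists_desc (inc 1 _ ≫ K) (by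
    rw [← inc_naturality_assoc, K1]
    exact H1)
  refine ⟨(stab M).coPt.cl m ((HM.proj M).map y), ?_⟩
  refine (CoPt.comap_cl _ _ _ _ _).trans ?_
  rw [← h2, ← hg']
  refine congrArg ((stab M).coPt.cl m) ?_
  have h5 : MHtpy (q' ≫ y) g' := by
    rw [hy]
    exact MHtpy.symm ⟨K, K0, rfl⟩
  exact HM.sound h5

theorem Triv.ext {A B Q Z : M} {i : A ⟶ B} {q : B ⟶ Q} (hi : HCof i) (hq : IsCofibre i q)
    (hA : Triv A Z) (hQ : Triv Q Z) : Triv B Z := by
  intro x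
  obtain ⟨y, rfl⟩ := exists_comapM hi hq x (hA _)
  rw [hQ y, comapM_pz]

/-- the cone sequence of an identity -/
theorem isCone_id (X : M) : IsCone (𝟙 X) (𝟙 (X ⊗ CI M)) (coneBase X) (X ◁ collM) where
  po := IsPushout.of_vert_isIso ⟨by rw [Category.comp_id, Category.id_comp]⟩
  kq := Category.id_comp _
  iq := coneBase_collM X

/-- `f` is a stable equivalence iff its mapping cone is acyclic -/
theorem piW_iff_acyc (GG : ObjectProperty M) [IsTest GG] {X Y C : M} {f : X ⟶ Y}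
    {k : X ⊗ CI M ⟶ C} {i : Y ⟶ C} {q : C ⟶ X ⊗ S M} (h : IsCone f k i q) :
    piW GG f ↔ Acyc GG C := by
  have h5 := (puppeInput M).five_cone (GG := GG) (isCone_id X) h (𝟙 X) f k rfl
    (by rw [id_whiskerRight]) h.po.w
  have h6 : piW GG f ↔ piW GG k :=
    ⟨fun hf => h5.1 (piW_of_isIso _) hf, fun hk => h5.2.2 (piW_of_isIso _) hk⟩
  rw [h6, piW_iff]
  constructor
  · intro hk A hA x
    obtain ⟨y, rfl⟩ := (hk A hA).2 x
    rw [triv_of_contr A (mHtpy_id_cone X) y, mapM_pz]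
  · intro hC A hA
    refine ⟨fun y y' _ => ?_, fun x => ⟨pz _ _, ?_⟩⟩
    · rw [triv_of_contr A (mHtpy_id_cone X) y, triv_of_contr A (mHtpy_id_cone X) y']
    · rw [mapM_pz, hC A hA x]
variable {GG : ObjectProperty M}

theorem piW_unsusp (Y : M) : piW GG (unsusp Y) :=
  (piW GG).comp_mem _ _ (piW_of_isIso _) ((piW GG).comp_mem _ _ (piW_of_isIso _) (piW_lam Y))

/-- `A` sees the stable equivalences iff it sees the acyclic objects -/
theorem src_iff [IsTest GG] (A : M) : Src GG A ↔ ∀ Z, Acyc GG Z → Triv A Z := by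
  constructor
  · intro h Z hZ x
    have h0 : piW GG (0 : (0 : M) ⟶ Z) := by
      refine (piW_iff _).2 fun B hB => ⟨fun y y' _ => ?_, fun z => ⟨pz _ _, ?_⟩⟩
      · rw [piM_subsingleton_of_isZero B (isZero_zero M) y,
          piM_subsingleton_of_isZero B (isZero_zero M) y']
      · rw [mapM_pz, hZ B hB z]
    obtain ⟨y, rfl⟩ := (h _ h0).2 x
    exact mapM_zero_pz A y
  · intro h X Y f hf
    constructor
    · obtain ⟨C, k, i, q, hC⟩ := IsCone.exists_isCone ((L : M) ◁ f)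
      have h1 := h C ((piW_iff_acyc GG hC).1 ((piW_whiskerLeft_L f).2 hf))
      have h2 : Function.Injective (mapM A (((L : M) ◁ f) ▷ S M)) := by
        refine (mapM_injective_iff A _).2 fun x hx => ?_
        have hz : ∀ Z : M, (0 : PiM A Z) = pz A Z := fun Z => (puppeInput M).zero_eq A Z
        obtain ⟨y, rfl⟩ := (puppeInput M).ex₃ hC A x (hx.trans (hz _))
        rw [h1 y, mapM_pz, hz]
      have h3 : ∀ Z : M, Function.Bijective (mapM A ((α_ (L : M) Z (S M)).hom ≫ unsusp Z)) :=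
        fun Z => (piW_iff (GG := fun _ => True) _).1
          ((piW _).comp_mem _ _ (piW_of_isIso _) (piW_unsusp Z)) A trivial
      intro x x' e
      obtain ⟨x, rfl⟩ := (h3 X).2 x
      obtain ⟨x', rfl⟩ := (h3 X).2 x'
      rw [← mapM_comp, ← mapM_comp, Category.assoc, ← unsusp_naturality,
        ← associator_naturality_middle_assoc, mapM_comp, mapM_comp A (_ ▷ _)] at e
      rw [h2 ((h3 Y).1 e)]
    · intro y
      obtain ⟨C, k, i, q, hC⟩ := IsCone.exists_isCone f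
      exact (puppeInput M).ex₁ hC A y (h C ((piW_iff_acyc GG hC).1 hf) _)

theorem src_comap {A B : M} (a : A ⟶ B) (ha : ∀ X, Function.Bijective (comapM a X)) :
    Src GG A ↔ Src GG B :=
  have k : ∀ {X Y : M} (f : X ⟶ Y),
      Function.Bijective (mapM A f) ↔ Function.Bijective (mapM B f) := fun f =>
    (stab M).bijective_map_comap ((HM.proj M).map a) (fun X => ha X.obj) ((HM.proj M).map f)
  ⟨fun h _ _ f hf => (k f).1 (h f hf), fun h _ _ f hf => (k f).2 (h f hf)⟩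

theorem src_iso {A B : M} (e : A ≅ B) : Src GG A ↔ Src GG B :=
  src_comap e.hom fun _ => CoPt.bijective_comap_of_isIso _ _ _

theorem src_U (A : M) : Src GG (U M ⊗ A) ↔ Src GG A :=
  src_comap (lamU M ▷ A ≫ (λ_ A).hom) fun X => (stab M).bijective_comap_t ⟨A⟩ ⟨X⟩

section Inv

variable {Z Z' : M} (e : Z ⊗ Z' ≅ U M)

include e

theorem bij_left {A X Y : M} (f : X ⟶ Y) :
    Function.Bijective (mapM (Z ⊗ A) (Z ◁ f)) ↔ Function.Bijective (mapM A f) :=
  (stab M).bijective_map_left (Z := ⟨Z⟩) (fun A X => ((stab M).bijective_left_iff _ A X).2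
    (((stab M).aug ⟨Z⟩ ⟨Z'⟩ ((HM.proj M).mapIso e)).bijective₁
      ((stab M).aug ⟨Z'⟩ ⟨Z⟩ ((HM.proj M).mapIso (β_ Z' Z ≪≫ e))) A X)) (A := ⟨A⟩)
    ((HM.proj M).map f)

theorem bij_aug {A X Y : M} (f : X ⟶ Y) :
    Function.Bijective (mapM (Z ⊗ (Z' ⊗ A)) f) ↔ Function.Bijective (mapM A f) :=
  (stab M).bijective_map_comap
    ((HM.proj M).map ((α_ Z Z' A).symm ≪≫ whiskerRightIso e A).hom ≫
      (HM.proj M).map (lamU M ▷ A ≫ (λ_ A).hom))
    (fun X => CoPt.bijective_comap_comp _ _ _ _ (CoPt.bijective_comap_of_isIso _ _ _)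
      ((stab M).bijective_comap_t ⟨A⟩ X)) ((HM.proj M).map f)

theorem flat_of (h : ∀ A, GG A → Src GG (Z' ⊗ A)) : Flat (piW GG) Z := fun _ _ f hf =>
  (piW_iff _).2 fun A hA => (bij_aug e _).1 ((bij_left e f).2 (h A hA f hf))

theorem src_tensor (h : Flat (piW GG) Z) {A : M} (hA : Src GG A) : Src GG (Z' ⊗ A) :=
  fun _ _ f hf => (bij_left e f).1 ((bij_aug e _).2 (hA _ (h f hf)))

end Inv

variable [IsTest GG]

theorem src_L {A : M} (h : Src GG A) : Src GG ((L : M) ⊗ A) :=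
  src_tensor (β_ (S M) (L : M)) (fun _ _ f => (piW_whiskerLeft_S f).2) h

theorem src_S (A : M) : Src GG (S M ⊗ A) ↔ Src GG A :=
  ⟨fun h => (src_U A).1 ((src_iso (α_ _ _ _)).2 (src_L h)),
    src_tensor (Iso.refl (U M)) fun _ _ f => (piW_whiskerLeft_L f).2⟩

theorem src_retract {A B : M} (h : Src GG A) (f : A ⟶ B) (g : B ⟶ A)
    (hg : MHtpy (g ≫ f) (𝟙 B)) : Src GG B :=
  (src_iff B).2 fun Z hZ => ((src_iff A).1 h Z hZ).of_retract f g hg

theorem src_zero {A : M} (h : IsZero A) : Src GG A :=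
  (src_iff A).2 fun Z _ => triv_of_isZero h Z

section Cof

variable {A B Q : M} {i : A ⟶ B} {q : B ⟶ Q} (hi : HCof i) (hq : IsCofibre i q)

include hi hq

theorem src_ext (hA : Src GG A) (hQ : Src GG Q) : Src GG B :=
  (src_iff B).2 fun Z hZ => Triv.ext hi hq ((src_iff A).1 hA Z hZ) ((src_iff Q).1 hQ Z hZ)

omit [IsTest GG] in
theorem exists_cone : ∃ (C : M) (j : B ⟶ C) (d : C ⟶ A ⊗ S M) (e : C ⟶ Q) (g : Q ⟶ C),
    HCof j ∧ IsCofibre j d ∧ MHtpy (e ≫ g) (𝟙 C) ∧ MHtpy (g ≫ e) (𝟙 Q) := by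
  obtain ⟨C, k, j, d, h⟩ := IsCone.exists_isCone i
  have he : coneBase A ≫ (0 : A ⊗ CI M ⟶ Q) = i ≫ q := by rw [comp_zero, hq.comp_eq_zero]
  obtain ⟨g, g1, g2⟩ := hi.exists_cone_inverse h.po (isZero_zero M)
    (hq.isPushout (isZero_zero M) 0 0) (h.po.desc 0 q he) (h.po.inl_desc _ _ _)
    (h.po.inr_desc _ _ _)
  exact ⟨C, j, d, _, g, hCof_cone h.po,
    ⟨0, isZero_zero M, 0, 0, isPushout_collapse h.po h.kq h.iq (isZero_zero M) 0 0⟩, g1, g2⟩

theorem src_quot (hA : Src GG A) (hB : Src GG B) : Src GG Q := by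
  obtain ⟨C, j, d, e, g, h1, h2, -, h4⟩ := exists_cone hi hq
  exact src_retract (src_ext h1 h2 hB ((src_iso (β_ _ _)).1 ((src_S A).2 hA))) e g h4

theorem src_fib (hB : Src GG B) (hQ : Src GG Q) : Src GG A := by
  obtain ⟨C, j, d, e, g, h1, h2, h3, -⟩ := exists_cone hi hq
  exact (src_S A).1 ((src_iso (β_ _ _)).1 (src_quot h1 h2 hB (src_retract hQ g e h3)))

end Cof

omit [IsTest GG] in
theorem sm_of_src {A X Y : M} (hA : Src GG A) {f : X ⟶ Y} (hf : piW GG f) : SM f A ∧ IM f A := by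
  have h := (P251CI.W_iff (stab M).coPt (fun B => Src GG B.obj)
    (fun B hB => (src_U B.obj).2 hB) ((HM.proj M).map f)).1 (fun B hB => hB f hf) ⟨A⟩ hA
  exact ⟨(S0_iff f A).1 h.1, (I0_iff f A).1 h.2⟩

omit [IsTest GG] in
theorem exists_pw_tensor (Z A : M) (k : ℕ) : ∃ ψ : Z ⊗ pwM k A ≅ pwM k (Z ⊗ A),
    ψ.hom ≫ tkM k (Z ⊗ A) = Z ◁ tkM k A := by
  induction k with
  | zero => exact ⟨Iso.refl _, (Category.id_comp _).trans (whiskerLeft_id Z A).symm⟩
  | succ k ih =>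
    obtain ⟨ψ, hψ⟩ := ih
    let τ : U M ⊗ (Z ⊗ pwM k A) ≅ Z ⊗ (U M ⊗ pwM k A) :=
      (α_ _ _ _).symm ≪≫ whiskerRightIso (β_ _ _) _ ≪≫ α_ _ _ _
    refine ⟨τ.symm ≪≫ whiskerLeftIso (U M) ψ, ?_⟩
    have h := StabObj.left_t (lamU M) Z (pwM k A)
    change τ.hom ≫ _ = _ at h
    change (τ.inv ≫ U M ◁ ψ.hom) ≫ (lamU M ▷ pwM k (Z ⊗ A) ≫ (λ_ _).hom) ≫ tkM k (Z ⊗ A) =
      Z ◁ ((lamU M ▷ pwM k A ≫ (λ_ _).hom) ≫ tkM k A)
    rw [Category.assoc, Category.assoc, whisker_exchange_assoc, leftUnitor_naturality_assoc, hψ,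
      MonoidalCategory.whiskerLeft_comp Z (_ ≫ _), τ.inv_comp_eq, ← Category.assoc τ.hom, h,
      Category.assoc]

open MonoidalClosed in
omit [IsTest GG] in
theorem mHtpy_curry {Z B Y : M} {g g' : Z ⊗ B ⟶ Y} (h : MHtpy g g') :
    MHtpy (curry g) (curry g') := by
  obtain ⟨H, h0, h1⟩ := h
  have k : ∀ t, inc t B ≫ curry ((α_ Z B (I M)).inv ≫ H) = curry (inc t (Z ⊗ B) ≫ H) := fun t => by
    rw [← curry_natural_left, ← inc_tensor, Category.assoc, Iso.hom_inv_id_assoc]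
  exact ⟨curry ((α_ Z B (I M)).inv ≫ H), (k 0).trans (congrArg curry h0),
    (k 1).trans (congrArg curry h1)⟩

open MonoidalClosed in
/-- the right adjoint of `Z ⊗ -` preserves stable equivalences -/
theorem piW_ihom {Z : M} (h : ∀ A, GG A → Src GG (Z ⊗ A)) {X Y : M} (f : X ⟶ Y)
    (hf : piW GG f) : piW GG ((ihom Z).map f) := by
  refine (piW_iff_SM GG _).2 fun A hA => ⟨fun y => ?_, fun x x' e => ?_⟩
  · obtain ⟨k, x, hx⟩ := (sm_of_src (h A hA) hf).1 (uncurry y)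
    obtain ⟨ψ, hψ⟩ := exists_pw_tensor Z A k
    refine ⟨k, curry (ψ.hom ≫ x), ?_⟩
    have h1 := mHtpy_curry (hx.comp_left ψ.hom)
    rw [← Category.assoc, ← Category.assoc, hψ, curry_natural_right, curry_natural_left,
      curry_uncurry] at h1
    exact h1
  · have h1 := (e.whiskerLeft Z).comp_right ((ihom.ev Z).app Y)
    rw [← uncurry_eq, ← uncurry_eq, uncurry_natural_right, uncurry_natural_right] at h1
    obtain ⟨k, hk⟩ := (sm_of_src (h A hA) hf).2 _ _ h1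
    obtain ⟨ψ, hψ⟩ := exists_pw_tensor Z A k
    have h2 := mHtpy_curry (hk.comp_left ψ.hom)
    rw [← Category.assoc, ← Category.assoc, hψ, curry_natural_left, curry_natural_left,
      curry_uncurry, curry_uncurry] at h2
    exact ⟨k, h2⟩

end Vale.Agent.P241GC
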